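import Vale.Agent.N064.Low

namespace Vale.Agent.Results.P064.A0AlmostCopies

open Vale.Agent.P064 Vale.Agent.N064

/-- **The sharp threshold order for containing all but `d` edges of a copy of `H`, with error
probability `ε`.** -/
theorem result : ∃ C c : ℝ, 0 < C ∧ 0 < c ∧
    -- (1) All but `d` edges of a copy of `H`.
    (∀ (n : ℕ) (W : Type*) [Fintype W] (H : SimpleGraph W), Fintype.card W ≤ n → H ≠ ⊥ →
      ∀ (d : ℕ) (ε : ℝ), 0 < ε → ε ≤ 1 → ∀ p : unitInterval,
        C * pE n H * (Real.log (2 + H.edgeSet.ncard / (d + 1)) + Real.log (1 / ε) / (d + 1)) ≤ p →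
          1 - ε ≤ probAlmost n d H p) ∧
    -- (2) The bound (1) is sharp in the number of edges, in `d` and in `ε`, for matchings.
    (∀ n : ℕ, 2 ≤ n → ∃ H : SimpleGraph (Fin n),
      (∀ u v w, H.Adj u v → H.Adj u w → v = w) ∧ H.edgeSet.ncard = n / 2 ∧ 0 < pE n H ∧
      ∀ (d : ℕ) (ε : ℝ), 4 * d < n → 0 < ε → ε ≤ 1 / 2 → ∀ p : unitInterval, (p : ℝ) ≤ 1 / 2 →
        1 - ε ≤ probAlmost n d H p →
          c * pE n H * (Real.log (2 + H.edgeSet.ncard / (d + 1)) + Real.log (1 / ε) / (d + 1))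
            ≤ p) ∧
    -- (3) The bound (1) for every finite group acting on a finite set.
    (∀ (G X : Type*) [Group G] [Fintype G] [Fintype X] [DecidableEq X] [MulAction G X]
      (H : Finset X), H.Nonempty → ∀ (d : ℕ) (ε p : ℝ), 0 < ε → ε ≤ 1 → p ≤ 1 →
        C * Act.expThr G H * (Real.log (2 + H.card / (d + 1)) + Real.log (1 / ε) / (d + 1)) ≤ p →
          1 - ε ≤ probAlmostTranslate G d H p) := by
  have hlog : ∀ (m d : ℕ) (ε : ℝ), 0 < ε → ε ≤ 1 →
      0 ≤ Real.log (2 + (m : ℝ) / (d + 1)) + Real.log (1 / ε) / (d + 1) := by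
    intro m d ε h0 h1
    have h2 : (0 : ℝ) ≤ (m : ℝ) / (d + 1) := by positivity
    have h3 : 0 ≤ Real.log (2 + (m : ℝ) / (d + 1)) := Real.log_nonneg (by linarith)
    have h4 : 0 ≤ Real.log (1 / ε) := Real.log_nonneg (by rw [le_div_iff₀ h0]; linarith)
    positivity
  refine ⟨576 * 2 ^ 72, 1 / 864, by norm_num, by norm_num, ?_, ?_, ?_⟩
  · intro n W _ H hW hH
    obtain ⟨j⟩ : Nonempty (W ↪ Fin n) :=
      Function.Embedding.nonempty_of_card_le (by rwa [Fintype.card_fin])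
    intro d ε hε0 hε1 p hp
    refine graph_almost hH j d hε0 hε1 p (le_trans ?_ hp)
    refine mul_le_mul_of_nonneg_right ?_ (hlog _ d ε hε0 hε1)
    exact mul_le_mul_of_nonneg_right (by norm_num) (pE_nonneg H)
  · intro n hn
    refine ⟨nmat n, fun u v w h h' => nmat_unique h h', card_nmat n,
      pE_pos _ (lower hn).1 (Function.Embedding.refl (Fin n)), ?_⟩
    intro d ε hd hε0 hε1 p hp2 hp
    exact low hn hd hε0 hε1 p hp2 hp
  · intro G X _ _ _ _ _ H hH d ε p hε0 hε1 hp1 hp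
    refine act_almost G hH d hε0 hε1 (le_trans ?_ hp) hp1
    refine mul_le_mul_of_nonneg_right ?_ (hlog _ d ε hε0 hε1)
    exact mul_le_mul_of_nonneg_right (by norm_num) (Act.expThr_pos G hH).le

end Vale.Agent.Results.P064.A0AlmostCopies
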