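import Vale.Agent.N064B.Graph

namespace Vale.Agent.Results.P064.A0MinWeight

open Vale.Agent.N064B MeasureTheory
open scoped Pointwise

/-- **The cheapest copy of `H` in the complete graph with independent uniform edge weights: the
logarithm of the second Kahn-Kalai conjecture disappears.** -/
theorem result : ∃ C c : ℝ, 0 < C ∧ 0 < c ∧
    -- (0) The edges of weight at most `p` form the binomial random graph `G(n,p)` of Mathlib.
    (∀ (n : ℕ) (p : unitInterval),
      Measure.map (below (p : ℝ)) (volume : Measure (Edge n → unitInterval)) =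
        SimpleGraph.binomialRandom (Fin n) p) ∧
    (∀ (n : ℕ) (W : Type*) [Fintype W] (H : SimpleGraph W), Fintype.card W ≤ n → H ≠ ⊥ →
      -- (1) The least total weight of a copy of `H`: upper tail and mean.
      ((∀ t : ℝ, 0 ≤ t → (volume : Measure (Edge n → unitInterval)).real
          {ξ | C * pE n H * (H.edgeSet.ncard + t) ≤ minSum H id ξ} ≤ Real.exp (-t)) ∧
        Integrable (minSum H id) (volume : Measure (Edge n → unitInterval)) ∧
        (∫ ξ : Edge n → unitInterval, minSum H id ξ) ≤ C * pE n H * H.edgeSet.ncard) ∧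
      -- (2) One copy is good at all scales at once.
      (Integrable (minSum H fun x => Real.exp (x / (C * pE n H)))
          (volume : Measure (Edge n → unitInterval)) ∧
        (∫ ξ : Edge n → unitInterval, minSum H (fun x => Real.exp (x / (C * pE n H))) ξ) ≤
          5 * H.edgeSet.ncard) ∧
      -- (3) Lower tail and lower bound for the mean, from every subgraph `F` of `H`.
      ∀ (F : H.Subgraph) (p : ℝ), 0 < p → p ≤ 1 →
        (volume : Measure (Edge n → unitInterval)).real
          {ξ | minSum H id ξ ≤ F.edgeSet.ncard * p / 3} ≤ expCopy n F.coe p ∧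
        (expCopy n F.coe p ≤ 1 / 2 →
          F.edgeSet.ncard * p / 6 ≤ ∫ ξ : Edge n → unitInterval, minSum H id ξ)) ∧
    -- (4) The bound for the mean in (1) is sharp for matchings.
    (∀ n : ℕ, 2 ≤ n → ∃ H : SimpleGraph (Fin n),
      (∀ u v w, H.Adj u v → H.Adj u w → v = w) ∧ H.edgeSet.ncard = n / 2 ∧
      c * pE n H * H.edgeSet.ncard ≤ ∫ ξ : Edge n → unitInterval, minSum H id ξ) ∧
    -- (5) The bounds (1) and (2) for every finite group acting on a finite set.
    (∀ (G X : Type*) [Group G] [Fintype G] [Fintype X] [DecidableEq X] [MulAction G X]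
      (H : Finset X) (q : ℝ), 0 < q →
      (∀ F ⊆ H, 1 / 2 ≤ ((MulAction.orbit G F).ncard : ℝ) * q ^ F.card) →
      (∀ t : ℝ, 0 ≤ t → (volume : Measure (X → unitInterval)).real
        {ξ | C * q * (H.card + t) ≤ ⨅ g : G, ∑ x ∈ g • H, (ξ x : ℝ)} ≤ Real.exp (-t)) ∧
      Integrable (fun ξ : X → unitInterval => ⨅ g : G, ∑ x ∈ g • H, (ξ x : ℝ)) ∧
      (∫ ξ : X → unitInterval, ⨅ g : G, ∑ x ∈ g • H, (ξ x : ℝ)) ≤ C * q * H.card ∧
      Integrable (fun ξ : X → unitInterval => ⨅ g : G, ∑ x ∈ g • H, Real.exp (ξ x / (C * q))) ∧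
      (∫ ξ : X → unitInterval, ⨅ g : G, ∑ x ∈ g • H, Real.exp (ξ x / (C * q))) ≤
        5 * H.card) := by
  refine ⟨576 * 2 ^ 72, 1 / 729, by norm_num, by norm_num, fun n p => map_below p,
    ?_, ?_, ?_⟩
  · intro n W _ H hW hH
    obtain ⟨j⟩ : Nonempty (W ↪ Fin n) :=
      Function.Embedding.nonempty_of_card_le (by rwa [Fintype.card_fin])
    obtain ⟨h1, h2⟩ := graph_upper hH j (C := 576 * 2 ^ 72) (by norm_num)
    refine ⟨⟨h1, graph_int H j, h2⟩, graph_prof hH j (by norm_num), fun F p hp0 hp1 => ?_⟩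
    have h3 := graph_lower H j F hp0 hp1
    refine ⟨h3, fun h4 => le_trans (le_of_eq ?_) (graph_mean_ge H j ?_ (h3.trans h4))⟩
    · ring
    · positivity
  · intro n hn
    exact ⟨P064.nmat n, fun u v w h h' => P064.nmat_unique h h', N064.card_nmat n, nmat_lower hn⟩
  · intro G X _ _ _ _ _ H q hq0 hq
    exact group_upper H q hq0 hq (by norm_num)

end Vale.Agent.Results.P064.A0MinWeight
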